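import Vale.Agent.Lib.P054.Lat.Defs

/-! L1. ROUTE. If `S ⊆ {0}` then `card ≤ 1`. Else pick `b0 ∈ S`, `b0 ≠ 0`, and a coordinate `i` with `b0_i ≠ 0` (three cases). The map `b ↦ b_i` is injective on `S`:
from `icross b b0 = 0`, `icross b' b0 = 0` and `b_i = b'_i` one gets for `d = b - b'`: `d_j * b0_i = d_i * b0_j = 0`, so `d_j = 0` (unfold `icross`, `Prod.ext_iff`,
`mul_left_cancel₀`/`nlinarith`/`linear_combination`). It maps `S` into `box s = Icc (-s) s`, of cardinality `2 s + 1` (`Int.card_Icc`). `Finset.card_le_card_of_injOn`. -/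

namespace Vale.Agent.Lib.P054

open Finset

private theorem card_box' (s : ℕ) : (box s).card = 2 * s + 1 := by
  unfold box
  rw [Int.card_Icc]
  omega

theorem card_collinear (s : ℕ) (S : Finset (ℤ × ℤ × ℤ)) (hS : S ⊆ box3 s)
    (h : ∀ b ∈ S, ∀ b' ∈ S, icross b b' = 0) : S.card ≤ 2 * s + 1 := by
  by_cases h0 : ∀ b ∈ S, b = 0
  · have : S ⊆ {0} := fun b hb => Finset.mem_singleton.mpr (h0 b hb)
    calc S.card ≤ ({0} : Finset (ℤ × ℤ × ℤ)).card := Finset.card_le_card this
      _ = 1 := Finset.card_singleton _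
      _ ≤ 2 * s + 1 := by omega
  · push Not at h0
    obtain ⟨b0, hb0, hne⟩ := h0
    have hmem : ∀ b ∈ S, b.1 ∈ box s ∧ b.2.1 ∈ box s ∧ b.2.2 ∈ box s := by
      intro b hb
      have := hS hb
      unfold box3 at this
      simp only [Finset.mem_product] at this
      exact this
    have hcr : ∀ b ∈ S, b.2.1 * b0.2.2 - b.2.2 * b0.2.1 = 0 ∧ b.2.2 * b0.1 - b.1 * b0.2.2 = 0 ∧
        b.1 * b0.2.1 - b.2.1 * b0.1 = 0 := by
      intro b hb
      have := h b hb b0 hb0
      unfold icross at this
      simp only [Prod.ext_iff, Prod.fst_zero, Prod.snd_zero] at this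
      exact this
    have hcase : b0.1 ≠ 0 ∨ b0.2.1 ≠ 0 ∨ b0.2.2 ≠ 0 := by
      by_contra hcon
      push Not at hcon
      exact hne (Prod.ext hcon.1 (Prod.ext hcon.2.1 hcon.2.2))
    rw [← card_box' s]
    rcases hcase with hc | hc | hc
    · refine Finset.card_le_card_of_injOn (fun b => b.1) (fun b hb => (hmem b hb).1) ?_
      intro b hb b' hb' hbb
      have e : b.1 = b'.1 := hbb
      obtain ⟨x1, x2, x3⟩ := hcr b hb
      obtain ⟨y1, y2, y3⟩ := hcr b' hb'
      have e2 : b.2.1 = b'.2.1 := by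
        apply mul_right_cancel₀ hc
        rw [e] at x3
        linarith
      have e3 : b.2.2 = b'.2.2 := by
        apply mul_right_cancel₀ hc
        rw [e] at x2
        linarith
      exact Prod.ext e (Prod.ext e2 e3)
    · refine Finset.card_le_card_of_injOn (fun b => b.2.1) (fun b hb => (hmem b hb).2.1) ?_
      intro b hb b' hb' hbb
      have e : b.2.1 = b'.2.1 := hbb
      obtain ⟨x1, x2, x3⟩ := hcr b hb
      obtain ⟨y1, y2, y3⟩ := hcr b' hb'
      have e1 : b.1 = b'.1 := by
        apply mul_right_cancel₀ hc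
        rw [e] at x3
        linarith
      have e3 : b.2.2 = b'.2.2 := by
        apply mul_right_cancel₀ hc
        rw [e] at x1
        linarith
      exact Prod.ext e1 (Prod.ext e e3)
    · refine Finset.card_le_card_of_injOn (fun b => b.2.2) (fun b hb => (hmem b hb).2.2) ?_
      intro b hb b' hb' hbb
      have e : b.2.2 = b'.2.2 := hbb
      obtain ⟨x1, x2, x3⟩ := hcr b hb
      obtain ⟨y1, y2, y3⟩ := hcr b' hb'
      have e1 : b.1 = b'.1 := by
        apply mul_right_cancel₀ hc
        rw [e] at x2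
        linarith
      have e2 : b.2.1 = b'.2.1 := by
        apply mul_right_cancel₀ hc
        rw [e] at x1
        linarith
      exact Prod.ext e1 (Prod.ext e2 e)

end Vale.Agent.Lib.P054
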