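import Vale.Agent.Lib.P054.Total
import Vale.Agent.Lib.P054.CS
import Vale.Agent.Lib.P054.Density

/-! P054, arbitrary lattices in dimension three: definitions. Integer vectors are triples `ℤ × ℤ × ℤ`, real vectors `ℝ × ℝ × ℝ`. -/

namespace Vale.Agent.Lib.P054

open Finset

/-- cross product of integer vectors -/
def icross (a b : ℤ × ℤ × ℤ) : ℤ × ℤ × ℤ :=
  (a.2.1 * b.2.2 - a.2.2 * b.2.1, a.2.2 * b.1 - a.1 * b.2.2, a.1 * b.2.1 - a.2.1 * b.1)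

/-- scalar product of a real and an integer vector -/
def rz (c : ℝ × ℝ × ℝ) (b : ℤ × ℤ × ℤ) : ℝ := c.1 * b.1 + c.2.1 * b.2.1 + c.2.2 * b.2.2

/-- the real vector `c` is parallel to the integer vector `z` (cross product zero) -/
def rpar (c : ℝ × ℝ × ℝ) (z : ℤ × ℤ × ℤ) : Prop :=
  c.2.1 * z.2.2 - c.2.2 * z.2.1 = 0 ∧ c.2.2 * z.1 - c.1 * z.2.2 = 0 ∧ c.1 * z.2.1 - c.2.1 * z.1 = 0

/-- two real vectors are parallel (cross product zero) -/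
def rrpar (c d : ℝ × ℝ × ℝ) : Prop :=
  c.2.1 * d.2.2 - c.2.2 * d.2.1 = 0 ∧ c.2.2 * d.1 - c.1 * d.2.2 = 0 ∧ c.1 * d.2.1 - c.2.1 * d.1 = 0

/-- gcd of the three coordinates -/
def g3 (a : ℤ × ℤ × ℤ) : ℕ := Int.gcd a.1 (Int.gcd a.2.1 a.2.2)

/-- sup norm -/
def sup3 (a : ℤ × ℤ × ℤ) : ℤ := max |a.1| (max |a.2.1| |a.2.2|)

/-- the scale invariant weight `gcd / sup norm` -/
noncomputable def om (a : ℤ × ℤ × ℤ) : ℝ := (g3 a : ℝ) / (sup3 a : ℝ)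

end Vale.Agent.Lib.P054
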