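import Vale.Agent.Lib.P054.Lat.Defs

/-! L9. The lattice `ℤ u1 + ℤ u2 + ℤ u3` in a real inner product space. ROUTE.
`rz_cvec`: bilinearity of the inner product (`inner_add_right`, `inner_smul_right`, unfold).
`lat_eq_zero`: `LinearIndependent.pair_iff`-like for three vectors: `Fintype.linearIndependent_iff` (or `linearIndependent_iff'`) applied to the coefficients `![x, y, w]`, `Fin.sum_univ_three`.
`cvec_ne_zero`: if `cvec a = 0` then `⟪lat a, lat a⟫ = rz (cvec a) a = 0`, so `lat a = 0`, so the (real) coordinates vanish by `lat_eq_zero`, `Int.cast_eq_zero`.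
`cvec_par`: if `a = 0`, trivial (`icross 0 a' = 0` by `simp [icross]`). Else `cvec a ≠ 0`, say its `k`-th coordinate is `≠ 0`; with `m = (cvec a')_k / (cvec a)_k`, `rrpar` gives `cvec a' = m • cvec a`
coordinatewise. Then `x = lat a' - m • lat a` satisfies `⟪x, u_i⟫ = 0` for `i = 1, 2, 3`, and `x = (a'.1 - m a.1) • u1 + ..`, so `⟪x, x⟫ = 0`, `x = 0`, and by `lat_eq_zero` `a'_i = m a_i` (reals).
Hence each coordinate of `icross a a'` is `0` after casting to `ℝ` (`Int.cast_injective`, `push_cast`, `ring`-like). -/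

namespace Vale.Agent.Lib.P054

open scoped RealInnerProductSpace

variable {E : Type*} [NormedAddCommGroup E] [InnerProductSpace ℝ E]

/-- the lattice point with integer coordinates `a` -/
noncomputable def lat (u1 u2 u3 : E) (a : ℤ × ℤ × ℤ) : E :=
  (a.1 : ℝ) • u1 + (a.2.1 : ℝ) • u2 + (a.2.2 : ℝ) • u3

/-- the vector of scalar products of `lat a` with the basis -/
noncomputable def cvec (u1 u2 u3 : E) (a : ℤ × ℤ × ℤ) : ℝ × ℝ × ℝ :=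
  (⟪lat u1 u2 u3 a, u1⟫, ⟪lat u1 u2 u3 a, u2⟫, ⟪lat u1 u2 u3 a, u3⟫)

theorem rz_cvec (u1 u2 u3 : E) (a b : ℤ × ℤ × ℤ) :
    rz (cvec u1 u2 u3 a) b = ⟪lat u1 u2 u3 a, lat u1 u2 u3 b⟫ := by
  obtain ⟨L, hL⟩ : ∃ L, L = lat u1 u2 u3 a := ⟨_, rfl⟩
  show ⟪lat u1 u2 u3 a, u1⟫ * b.1 + ⟪lat u1 u2 u3 a, u2⟫ * b.2.1 + ⟪lat u1 u2 u3 a, u3⟫ * b.2.2
    = ⟪lat u1 u2 u3 a, (b.1 : ℝ) • u1 + (b.2.1 : ℝ) • u2 + (b.2.2 : ℝ) • u3⟫
  rw [← hL, inner_add_right, inner_add_right, real_inner_smul_right, real_inner_smul_right,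
    real_inner_smul_right]
  ring

theorem lat_eq_zero (u1 u2 u3 : E) (hu : LinearIndependent ℝ ![u1, u2, u3]) (x y w : ℝ)
    (h : x • u1 + y • u2 + w • u3 = 0) : x = 0 ∧ y = 0 ∧ w = 0 := by
  have h1 := Fintype.linearIndependent_iff.mp hu ![x, y, w]
    (by simpa [Fin.sum_univ_three] using h)
  exact ⟨h1 0, h1 1, h1 2⟩

private theorem key (u1 u2 u3 : E) (hu : LinearIndependent ℝ ![u1, u2, u3]) (s1 s2 s3 : ℝ)
    (h1 : ⟪s1 • u1 + s2 • u2 + s3 • u3, u1⟫ = 0) (h2 : ⟪s1 • u1 + s2 • u2 + s3 • u3, u2⟫ = 0)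
    (h3 : ⟪s1 • u1 + s2 • u2 + s3 • u3, u3⟫ = 0) : s1 = 0 ∧ s2 = 0 ∧ s3 = 0 := by
  apply lat_eq_zero u1 u2 u3 hu
  obtain ⟨x, hx⟩ : ∃ x, x = s1 • u1 + s2 • u2 + s3 • u3 := ⟨_, rfl⟩
  rw [← hx] at h1 h2 h3 ⊢
  have hxx : ⟪x, s1 • u1 + s2 • u2 + s3 • u3⟫ = 0 := by
    rw [inner_add_right, inner_add_right, real_inner_smul_right, real_inner_smul_right,
      real_inner_smul_right, h1, h2, h3]
    ring
  rw [← hx] at hxx
  exact inner_self_eq_zero.mp hxx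

theorem cvec_ne_zero (u1 u2 u3 : E) (hu : LinearIndependent ℝ ![u1, u2, u3]) (a : ℤ × ℤ × ℤ) (ha : a ≠ 0) :
    cvec u1 u2 u3 a ≠ 0 := by
  intro h
  have h1 : ⟪lat u1 u2 u3 a, u1⟫ = 0 := congrArg (fun t => t.1) h
  have h2 : ⟪lat u1 u2 u3 a, u2⟫ = 0 := congrArg (fun t => t.2.1) h
  have h3 : ⟪lat u1 u2 u3 a, u3⟫ = 0 := congrArg (fun t => t.2.2) h
  obtain ⟨e1, e2, e3⟩ := key u1 u2 u3 hu (a.1 : ℝ) (a.2.1 : ℝ) (a.2.2 : ℝ) h1 h2 h3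
  apply ha
  refine Prod.ext ?_ (Prod.ext ?_ ?_)
  · exact_mod_cast e1
  · exact_mod_cast e2
  · exact_mod_cast e3

private theorem cross_zero (a a' : ℤ × ℤ × ℤ) (c d : ℝ) (hc : c ≠ 0)
    (e1 : c * (a'.1 : ℝ) = d * a.1) (e2 : c * (a'.2.1 : ℝ) = d * a.2.1)
    (e3 : c * (a'.2.2 : ℝ) = d * a.2.2) : icross a a' = 0 := by
  have f1 : ((a.2.1 * a'.2.2 - a.2.2 * a'.2.1 : ℤ) : ℝ) = 0 := by
    have : c * ((a.2.1 : ℝ) * a'.2.2 - a.2.2 * a'.2.1) = 0 := by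
      linear_combination (a.2.1 : ℝ) * e3 - (a.2.2 : ℝ) * e2
    push_cast
    exact (mul_eq_zero.mp this).resolve_left hc
  have f2 : ((a.2.2 * a'.1 - a.1 * a'.2.2 : ℤ) : ℝ) = 0 := by
    have : c * ((a.2.2 : ℝ) * a'.1 - a.1 * a'.2.2) = 0 := by
      linear_combination (a.2.2 : ℝ) * e1 - (a.1 : ℝ) * e3
    push_cast
    exact (mul_eq_zero.mp this).resolve_left hc
  have f3 : ((a.1 * a'.2.1 - a.2.1 * a'.1 : ℤ) : ℝ) = 0 := by
    have : c * ((a.1 : ℝ) * a'.2.1 - a.2.1 * a'.1) = 0 := by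
      linear_combination (a.1 : ℝ) * e2 - (a.2.1 : ℝ) * e1
    push_cast
    exact (mul_eq_zero.mp this).resolve_left hc
  refine Prod.ext ?_ (Prod.ext ?_ ?_)
  · exact_mod_cast f1
  · exact_mod_cast f2
  · exact_mod_cast f3

theorem cvec_par (u1 u2 u3 : E) (hu : LinearIndependent ℝ ![u1, u2, u3]) (a a' : ℤ × ℤ × ℤ)
    (h : rrpar (cvec u1 u2 u3 a) (cvec u1 u2 u3 a')) : icross a a' = 0 := by
  by_cases ha : a = 0
  · subst ha
    simp [icross]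
  obtain ⟨h1, h2, h3⟩ := h
  obtain ⟨c1, hc1⟩ : ∃ c, c = ⟪lat u1 u2 u3 a, u1⟫ := ⟨_, rfl⟩
  obtain ⟨c2, hc2⟩ : ∃ c, c = ⟪lat u1 u2 u3 a, u2⟫ := ⟨_, rfl⟩
  obtain ⟨c3, hc3⟩ : ∃ c, c = ⟪lat u1 u2 u3 a, u3⟫ := ⟨_, rfl⟩
  obtain ⟨d1, hd1⟩ : ∃ c, c = ⟪lat u1 u2 u3 a', u1⟫ := ⟨_, rfl⟩
  obtain ⟨d2, hd2⟩ : ∃ c, c = ⟪lat u1 u2 u3 a', u2⟫ := ⟨_, rfl⟩
  obtain ⟨d3, hd3⟩ : ∃ c, c = ⟪lat u1 u2 u3 a', u3⟫ := ⟨_, rfl⟩
  have h1' : c2 * d3 - c3 * d2 = 0 := by rw [hc2, hc3, hd2, hd3]; exact h1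
  have h2' : c3 * d1 - c1 * d3 = 0 := by rw [hc1, hc3, hd1, hd3]; exact h2
  have h3' : c1 * d2 - c2 * d1 = 0 := by rw [hc1, hc2, hd1, hd2]; exact h3
  have claim : ∀ p q : ℝ, p * d1 - q * c1 = 0 → p * d2 - q * c2 = 0 → p * d3 - q * c3 = 0 →
      p * (a'.1 : ℝ) = q * a.1 ∧ p * (a'.2.1 : ℝ) = q * a.2.1 ∧ p * (a'.2.2 : ℝ) = q * a.2.2 := by
    intro p q g1 g2 g3
    have := key u1 u2 u3 hu (p * (a'.1 : ℝ) - q * a.1) (p * (a'.2.1 : ℝ) - q * a.2.1)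
      (p * (a'.2.2 : ℝ) - q * a.2.2) ?_ ?_ ?_
    · obtain ⟨e1, e2, e3⟩ := this
      exact ⟨by linarith, by linarith, by linarith⟩
    · rw [hd1, hc1] at g1
      rw [← g1]
      simp only [lat, inner_add_left, real_inner_smul_left]
      ring
    · rw [hd2, hc2] at g2
      rw [← g2]
      simp only [lat, inner_add_left, real_inner_smul_left]
      ring
    · rw [hd3, hc3] at g3
      rw [← g3]
      simp only [lat, inner_add_left, real_inner_smul_left]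
      ring
  have hc : c1 ≠ 0 ∨ c2 ≠ 0 ∨ c3 ≠ 0 := by
    by_contra hcon
    push Not at hcon
    apply cvec_ne_zero u1 u2 u3 hu a ha
    refine Prod.ext ?_ (Prod.ext ?_ ?_)
    · exact hc1.symm.trans hcon.1
    · exact hc2.symm.trans hcon.2.1
    · exact hc3.symm.trans hcon.2.2
  rcases hc with hc | hc | hc
  · obtain ⟨e1, e2, e3⟩ := claim c1 d1 (by ring) (by linarith) (by linarith)
    exact cross_zero a a' c1 d1 hc e1 e2 e3
  · obtain ⟨e1, e2, e3⟩ := claim c2 d2 (by linarith) (by ring) (by linarith)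
    exact cross_zero a a' c2 d2 hc e1 e2 e3
  · obtain ⟨e1, e2, e3⟩ := claim c3 d3 (by linarith) (by linarith) (by ring)
    exact cross_zero a a' c3 d3 hc e1 e2 e3

end Vale.Agent.Lib.P054
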