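import Vale.Agent.Lib.P054.Lat.Defs

/-! L5. ROUTE. `g = g3 z > 0`, `g ∣ z.1, z.2.1, z.2.2`; write `z = g • w` (`w_i = z_i / g`), then `g3 w = 1` (`Int.gcd_mul_left`: `g3 z = g * g3 w`) and `sup3 z = g * sup3 w`
(`abs_mul`, `mul_max_of_nonneg`), `sup3 w > 0`. Take `y = k • w`: `y ≠ 0`, `icross y z = 0` by `ring`, `g3 y = k * g3 w = k`, `sup3 y = k * sup3 w`,
`om z = g / (g * sup3 w) = 1 / sup3 w`, `om y = k / (k * sup3 w) = 1 / sup3 w`, `k / om z = k * sup3 w`. -/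

namespace Vale.Agent.Lib.P054

private theorem g3_nsmul (c : ℕ) (w1 w2 w3 : ℤ) :
    g3 ((c : ℤ) * w1, (c : ℤ) * w2, (c : ℤ) * w3) = c * g3 (w1, w2, w3) := by
  unfold g3
  simp only
  rw [Int.gcd_mul_left, Int.natAbs_natCast, Nat.cast_mul, Int.gcd_mul_left, Int.natAbs_natCast]

private theorem sup3_nsmul (c : ℕ) (w1 w2 w3 : ℤ) :
    sup3 ((c : ℤ) * w1, (c : ℤ) * w2, (c : ℤ) * w3) = (c : ℤ) * sup3 (w1, w2, w3) := by
  unfold sup3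
  simp only
  have hc : (0 : ℤ) ≤ (c : ℤ) := Int.natCast_nonneg c
  rw [abs_mul, abs_mul, abs_mul, abs_of_nonneg hc, mul_max_of_nonneg _ _ hc,
    mul_max_of_nonneg _ _ hc]

private theorem sup3_pos_of_ne (z : ℤ × ℤ × ℤ) (hz : z ≠ 0) : 0 < sup3 z := by
  unfold sup3
  by_contra hcon
  push Not at hcon
  have h1 : |z.1| ≤ 0 := le_trans (le_max_left _ _) hcon
  have h2 : |z.2.1| ≤ 0 := le_trans (le_trans (le_max_left _ _) (le_max_right _ _)) hcon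
  have h3 : |z.2.2| ≤ 0 := le_trans (le_trans (le_max_right _ _) (le_max_right _ _)) hcon
  apply hz
  have e1 : z.1 = 0 := abs_eq_zero.mp (le_antisymm h1 (abs_nonneg _))
  have e2 : z.2.1 = 0 := abs_eq_zero.mp (le_antisymm h2 (abs_nonneg _))
  have e3 : z.2.2 = 0 := abs_eq_zero.mp (le_antisymm h3 (abs_nonneg _))
  exact Prod.ext e1 (Prod.ext e2 e3)

theorem exists_normalised (z : ℤ × ℤ × ℤ) (hz : z ≠ 0) (k : ℕ) (hk : 0 < k) :
    ∃ y : ℤ × ℤ × ℤ, y ≠ 0 ∧ icross y z = 0 ∧ g3 y = k ∧ om y = om z ∧ ((sup3 y : ℤ) : ℝ) = (k : ℝ) / om z := by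
  obtain ⟨z1, z2, z3⟩ := z
  have hd1 : ((g3 (z1, z2, z3) : ℕ) : ℤ) ∣ z1 := Int.gcd_dvd_left _ _
  have hd23 : ((g3 (z1, z2, z3) : ℕ) : ℤ) ∣ ((Int.gcd z2 z3 : ℕ) : ℤ) := Int.gcd_dvd_right _ _
  have hd2 : ((g3 (z1, z2, z3) : ℕ) : ℤ) ∣ z2 := hd23.trans (Int.gcd_dvd_left _ _)
  have hd3 : ((g3 (z1, z2, z3) : ℕ) : ℤ) ∣ z3 := hd23.trans (Int.gcd_dvd_right _ _)
  have hsz := sup3_pos_of_ne _ hz
  generalize hg : g3 (z1, z2, z3) = g at hd1 hd2 hd3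
  obtain ⟨w1, rfl⟩ := hd1
  obtain ⟨w2, rfl⟩ := hd2
  obtain ⟨w3, rfl⟩ := hd3
  rw [g3_nsmul] at hg
  rw [sup3_nsmul] at hsz
  have hg0 : 0 < g := by
    rcases Nat.eq_zero_or_pos g with h0 | h0
    · subst h0
      simp at hsz
    · exact h0
  have hw : g3 (w1, w2, w3) = 1 := by
    have : g * g3 (w1, w2, w3) = g * 1 := by rw [hg, mul_one]
    exact Nat.eq_of_mul_eq_mul_left hg0 this
  have hgZ : (0 : ℤ) < (g : ℤ) := by exact_mod_cast hg0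
  have hsw : 0 < sup3 (w1, w2, w3) := by
    by_contra hcon
    push Not at hcon
    have := mul_nonpos_of_nonneg_of_nonpos hgZ.le hcon
    omega
  have hswR : (0 : ℝ) < ((sup3 (w1, w2, w3) : ℤ) : ℝ) := by exact_mod_cast hsw
  have hgR : (0 : ℝ) < (g : ℝ) := by exact_mod_cast hg0
  have hkR : (0 : ℝ) < (k : ℝ) := by exact_mod_cast hk
  have hkZ : (0 : ℤ) < (k : ℤ) := by exact_mod_cast hk
  have omz : om ((g : ℤ) * w1, (g : ℤ) * w2, (g : ℤ) * w3)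
      = 1 / ((sup3 (w1, w2, w3) : ℤ) : ℝ) := by
    unfold om
    rw [g3_nsmul, sup3_nsmul, hw]
    push_cast
    field_simp
  have omy : om ((k : ℤ) * w1, (k : ℤ) * w2, (k : ℤ) * w3)
      = 1 / ((sup3 (w1, w2, w3) : ℤ) : ℝ) := by
    unfold om
    rw [g3_nsmul, sup3_nsmul, hw]
    push_cast
    field_simp
  refine ⟨((k : ℤ) * w1, (k : ℤ) * w2, (k : ℤ) * w3), ?_, ?_, ?_, ?_, ?_⟩
  · intro h0
    have h1 : sup3 ((k : ℤ) * w1, (k : ℤ) * w2, (k : ℤ) * w3) = 0 := by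
      rw [h0]
      simp [sup3]
    rw [sup3_nsmul] at h1
    have := mul_pos hkZ hsw
    omega
  · unfold icross
    simp only
    refine Prod.ext ?_ (Prod.ext ?_ ?_)
    · show (k : ℤ) * w2 * ((g : ℤ) * w3) - (k : ℤ) * w3 * ((g : ℤ) * w2) = 0
      ring
    · show (k : ℤ) * w3 * ((g : ℤ) * w1) - (k : ℤ) * w1 * ((g : ℤ) * w3) = 0
      ring
    · show (k : ℤ) * w1 * ((g : ℤ) * w2) - (k : ℤ) * w2 * ((g : ℤ) * w1) = 0
      ring
  · rw [g3_nsmul, hw, mul_one]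
  · rw [omy, omz]
  · rw [omz, sup3_nsmul]
    push_cast
    field_simp

end Vale.Agent.Lib.P054
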