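import Vale.Agent.Lib.P054.Lat.Defs

/-! L6. ROUTE. Split the index set by `a.2.1 ≠ 0 ∨ a.2.2 ≠ 0` (`Finset.sum_filter_add_sum_filter_not` / `Finset.filter_filter`). On the first part `0 < mx a.2.1 a.2.2 ≤ sup3 a`, so
`om a ≤ gcd / mx` and `gcd_sum` gives `≤ 72 s^2` (the index set is then exactly the one of `gcd_sum`). On the second part `a = (a.1, 0, 0)`, `a.1 ≠ 0`, `g3 a = |a.1| = sup3 a`, `om a = 1`
(only `om a ≤ 1` is needed: `g3 a ≤ sup3 a` always for `a ≠ 0`), and `a ↦ a.1` injects this part into `box s`, so there are `≤ 2 s + 1 ≤ 3 s^2` terms.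
`om_nonneg`, `om_pos`: `positivity`-like (`g3 a > 0`, `sup3 a > 0` for `a ≠ 0`). -/

namespace Vale.Agent.Lib.P054

open Finset

private theorem ne_zero_cases (a : ℤ × ℤ × ℤ) (ha : a ≠ 0) :
    a.1 ≠ 0 ∨ a.2.1 ≠ 0 ∨ a.2.2 ≠ 0 := by
  by_contra h
  push Not at h
  apply ha
  obtain ⟨x, y, z⟩ := a
  simp only at h
  obtain ⟨h1, h2, h3⟩ := h
  subst h1 h2 h3
  rfl

private theorem sup3_pos (a : ℤ × ℤ × ℤ) (ha : a ≠ 0) : 0 < sup3 a := by
  unfold sup3
  rcases ne_zero_cases a ha with h | h | h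
  · exact lt_max_of_lt_left (abs_pos.mpr h)
  · exact lt_max_of_lt_right (lt_max_of_lt_left (abs_pos.mpr h))
  · exact lt_max_of_lt_right (lt_max_of_lt_right (abs_pos.mpr h))

private theorem g3_pos (a : ℤ × ℤ × ℤ) (ha : a ≠ 0) : 0 < g3 a := by
  unfold g3
  rw [Nat.pos_iff_ne_zero]
  intro h
  rw [Int.gcd_eq_zero_iff] at h
  obtain ⟨h1, h2⟩ := h
  have h2' : Int.gcd a.2.1 a.2.2 = 0 := by exact_mod_cast h2
  rw [Int.gcd_eq_zero_iff] at h2'
  rcases ne_zero_cases a ha with h | h | h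
  · exact h h1
  · exact h h2'.1
  · exact h h2'.2

theorem om_nonneg (a : ℤ × ℤ × ℤ) : 0 ≤ om a := by
  unfold om
  have h : (0 : ℤ) ≤ sup3 a := le_max_of_le_left (abs_nonneg _)
  exact div_nonneg (Nat.cast_nonneg _) (by exact_mod_cast h)

theorem om_pos (a : ℤ × ℤ × ℤ) (ha : a ≠ 0) : 0 < om a := by
  unfold om
  have h1 : (0 : ℝ) < (g3 a : ℝ) := by exact_mod_cast g3_pos a ha
  have h2 : (0 : ℝ) < (sup3 a : ℝ) := by exact_mod_cast sup3_pos a ha
  exact div_pos h1 h2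

theorem om_sum (s : ℕ) (hs : 1 ≤ s) :
    ∑ a ∈ (box3 s).filter (fun a => a ≠ 0), om a ≤ 75 * (s : ℝ) ^ 2 := by
  classical
  rw [← Finset.sum_filter_add_sum_filter_not ((box3 s).filter (fun a => a ≠ 0))
    (fun a => a.2.1 ≠ 0 ∨ a.2.2 ≠ 0)]
  have h1 : ∑ a ∈ ((box3 s).filter (fun a => a ≠ 0)).filter (fun a => a.2.1 ≠ 0 ∨ a.2.2 ≠ 0), om a
      ≤ 72 * (s : ℝ) ^ 2 := by
    have hset : ((box3 s).filter (fun a => a ≠ 0)).filter (fun a => a.2.1 ≠ 0 ∨ a.2.2 ≠ 0)
        = (box3 s).filter (fun a => a.2.1 ≠ 0 ∨ a.2.2 ≠ 0) := by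
      ext a
      simp only [Finset.mem_filter]
      constructor
      · rintro ⟨⟨h1, _⟩, h3⟩
        exact ⟨h1, h3⟩
      · rintro ⟨h1, h3⟩
        refine ⟨⟨h1, ?_⟩, h3⟩
        intro h0
        rw [h0] at h3
        simp at h3
    rw [hset]
    refine le_trans (Finset.sum_le_sum ?_) (gcd_sum s)
    intro a ha
    rw [Finset.mem_filter] at ha
    have hmxpos : 0 < mx a.2.1 a.2.2 := by
      unfold mx
      have : 0 < max |a.2.1| |a.2.2| := by
        rcases ha.2 with h | h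
        · exact lt_max_of_lt_left (abs_pos.mpr h)
        · exact lt_max_of_lt_right (abs_pos.mpr h)
      exact_mod_cast this
    have hle : mx a.2.1 a.2.2 ≤ (sup3 a : ℝ) := by
      unfold mx sup3
      exact_mod_cast le_max_right _ _
    unfold om g3
    exact div_le_div_of_nonneg_left (Nat.cast_nonneg _) hmxpos hle
  have h2 : ∑ a ∈ ((box3 s).filter (fun a => a ≠ 0)).filter
      (fun a => ¬ (a.2.1 ≠ 0 ∨ a.2.2 ≠ 0)), om a ≤ 3 * (s : ℝ) ^ 2 := by
    have hmem : ∀ a ∈ ((box3 s).filter (fun a => a ≠ 0)).filter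
        (fun a => ¬ (a.2.1 ≠ 0 ∨ a.2.2 ≠ 0)), a ∈ box3 s ∧ a ≠ 0 ∧ a.2.1 = 0 ∧ a.2.2 = 0 := by
      intro a ha
      rw [Finset.mem_filter, Finset.mem_filter] at ha
      obtain ⟨⟨hb, hne⟩, hn⟩ := ha
      push Not at hn
      exact ⟨hb, hne, hn.1, hn.2⟩
    have hone : ∀ a ∈ ((box3 s).filter (fun a => a ≠ 0)).filter
        (fun a => ¬ (a.2.1 ≠ 0 ∨ a.2.2 ≠ 0)), om a ≤ 1 := by
      intro a ha
      obtain ⟨_, hne, h21, h22⟩ := hmem a ha
      have h1 : a.1 ≠ 0 := by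
        rcases ne_zero_cases a hne with h | h | h
        · exact h
        · exact absurd h21 h
        · exact absurd h22 h
      have hd : ((g3 a : ℕ) : ℤ) ∣ a.1 := Int.gcd_dvd_left ..
      have hd' : g3 a ∣ a.1.natAbs := Int.natCast_dvd.mp hd
      have hle : g3 a ≤ a.1.natAbs := Nat.le_of_dvd (Int.natAbs_pos.mpr h1) hd'
      have hsup : (a.1.natAbs : ℤ) ≤ sup3 a := by
        unfold sup3
        rw [Int.natCast_natAbs]
        exact le_max_left _ _
      have hpos : (0 : ℝ) < sup3 a := by exact_mod_cast sup3_pos a hne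
      unfold om
      rw [div_le_one hpos]
      have h3 : ((g3 a : ℕ) : ℤ) ≤ sup3 a := le_trans (by exact_mod_cast hle) hsup
      exact_mod_cast h3
    have hcard : (((box3 s).filter (fun a => a ≠ 0)).filter
        (fun a => ¬ (a.2.1 ≠ 0 ∨ a.2.2 ≠ 0))).card ≤ (box s).card := by
      apply Finset.card_le_card_of_injOn (fun a => a.1)
      · intro a ha
        have hb := (hmem a (Finset.mem_coe.mp ha)).1
        unfold box3 at hb
        rw [Finset.mem_product] at hb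
        exact Finset.mem_coe.mpr hb.1
      · intro a ha b hb hab
        obtain ⟨_, _, a21, a22⟩ := hmem a (Finset.mem_coe.mp ha)
        obtain ⟨_, _, b21, b22⟩ := hmem b (Finset.mem_coe.mp hb)
        apply Prod.ext hab
        apply Prod.ext
        · rw [a21, b21]
        · rw [a22, b22]
    have hbox : (box s).card = 2 * s + 1 := by
      unfold box
      rw [Int.card_Icc]
      omega
    have hsum := Finset.sum_le_card_nsmul _ _ 1 hone
    rw [nsmul_eq_mul, mul_one] at hsum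
    have hc : ((((box3 s).filter (fun a => a ≠ 0)).filter
        (fun a => ¬ (a.2.1 ≠ 0 ∨ a.2.2 ≠ 0))).card : ℝ) ≤ 2 * s + 1 := by
      have := hcard.trans_eq hbox
      exact_mod_cast this
    have hs1 : (1 : ℝ) ≤ s := by exact_mod_cast hs
    nlinarith
  linarith

end Vale.Agent.Lib.P054
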