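import Vale.Agent.Lib.P054.Lat.Parallel
import Vale.Agent.Lib.P054.Lat.Normalise
import Vale.Agent.Lib.P054.Lat.OmSum

/-! L7. ROUTE.
`two_to_one`: general fact. `∑_{a ∈ A} w (y a) = ∑_{b ∈ A.image y} card (fibre b) * w b` (`Finset.sum_comp` or `Finset.sum_fiberwise_of_maps_to`), each fibre has `≤ 2` elements
(it is contained in `{a0, -a0}` for any of its elements `a0`: `Finset.card_le_two`/`Finset.card_insert_le`), `A.image y ⊆ B`, `w ≥ 0`.
`key_sum`: for `a ∈ A` choose `y a` by `exists_normalised (z a) _ (g3 a) _` (`g3 a > 0` since `a ≠ 0`; use `Classical.choose` or `choose`). Split `A` into `A1 = {om (z a) ≤ om a}` and `A2` = the rest.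
`∑_{A1} om (z a) ≤ ∑_{A1} om a ≤ ∑_{box3 minus 0} om ≤ 75 s^2` (`om_sum`, `om_nonneg`, `Finset.sum_le_sum_of_subset_of_nonneg`).
For `a ∈ A2`: `om (z a) > om a > 0`, so `sup3 (y a) = g3 a / om (z a) < g3 a / om a = sup3 a ≤ s`, hence `y a ∈ box3 s`, `y a ≠ 0`; `om (z a) = om (y a)`.
If `y a = y a'` (`a, a' ∈ A2`): `icross (z a) (z a') = 0` by `icross_trans` through `y a` (note `icross (y a) (z a) = 0`; `icross` is antisymmetric, prove `icross u v = 0 → icross v u = 0`),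
so `icross a a' = 0` by `hinj`, and `g3 a = g3 (y a) = g3 (y a') = g3 a'`, so `a' = a ∨ a' = -a` by `eq_or_neg_of_par`. Apply `two_to_one` with `B = box3 minus 0`, `w = om`: `∑_{A2} ≤ 2 * 75 s^2`. -/

namespace Vale.Agent.Lib.P054

open Finset

theorem two_to_one (A B : Finset (ℤ × ℤ × ℤ)) (y : ℤ × ℤ × ℤ → ℤ × ℤ × ℤ) (w : ℤ × ℤ × ℤ → ℝ)
    (hw : ∀ b, 0 ≤ w b) (hy : ∀ a ∈ A, y a ∈ B)
    (h2 : ∀ a ∈ A, ∀ a' ∈ A, y a = y a' → a' = a ∨ a' = -a) :
    ∑ a ∈ A, w (y a) ≤ 2 * ∑ b ∈ B, w b := by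
  classical
  rw [← Finset.sum_fiberwise_of_maps_to hy, Finset.mul_sum]
  apply Finset.sum_le_sum
  intro b hb
  have h1 : ∑ a ∈ A.filter (fun a => y a = b), w (y a)
      = ((A.filter (fun a => y a = b)).card : ℝ) * w b := by
    rw [Finset.sum_congr rfl (fun a ha => by rw [(Finset.mem_filter.1 ha).2]), Finset.sum_const,
      nsmul_eq_mul]
  rw [h1]
  have h3 : (A.filter (fun a => y a = b)).card ≤ 2 := by
    rcases (A.filter (fun a => y a = b)).eq_empty_or_nonempty with he | ⟨a0, ha0⟩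
    · rw [he]; simp
    · have hsub : A.filter (fun a => y a = b) ⊆ {a0, -a0} := by
        intro a ha
        have h0 := Finset.mem_filter.1 ha0
        have h1 := Finset.mem_filter.1 ha
        rcases h2 a0 h0.1 a h1.1 (h0.2.trans h1.2.symm) with h | h
        · simp [h]
        · simp [h]
      exact (Finset.card_le_card hsub).trans Finset.card_le_two
  have h4 : ((A.filter (fun a => y a = b)).card : ℝ) ≤ 2 := by exact_mod_cast h3
  exact mul_le_mul_of_nonneg_right h4 (hw b)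

theorem key_sum (s : ℕ) (hs : 1 ≤ s) (A : Finset (ℤ × ℤ × ℤ)) (hA : A ⊆ (box3 s).filter (fun a => a ≠ 0))
    (z : ℤ × ℤ × ℤ → ℤ × ℤ × ℤ) (hz0 : ∀ a ∈ A, z a ≠ 0)
    (hinj : ∀ a ∈ A, ∀ a' ∈ A, icross (z a) (z a') = 0 → icross a a' = 0) :
    ∑ a ∈ A, om (z a) ≤ 225 * (s : ℝ) ^ 2 := by
  classical
  have hA0 : ∀ a ∈ A, a ≠ 0 := fun a ha => (Finset.mem_filter.1 (hA ha)).2
  have hAb : ∀ a ∈ A, a ∈ box3 s := fun a ha => (Finset.mem_filter.1 (hA ha)).1
  have hg3 : ∀ a : ℤ × ℤ × ℤ, a ≠ 0 → 0 < g3 a := by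
    intro a ha
    rw [Nat.pos_iff_ne_zero]
    intro h
    apply ha
    unfold g3 at h
    rw [Int.gcd_eq_zero_iff] at h
    obtain ⟨h1, h2⟩ := h
    have h2' : Int.gcd a.2.1 a.2.2 = 0 := by exact_mod_cast h2
    rw [Int.gcd_eq_zero_iff] at h2'
    ext <;> simp [h1, h2'.1, h2'.2]
  have hbox : ∀ a : ℤ × ℤ × ℤ, a ∈ box3 s ↔ sup3 a ≤ (s : ℤ) := by
    intro a
    unfold box3 box sup3
    simp only [Finset.mem_product, Finset.mem_Icc, max_le_iff, abs_le]
  have hswap : ∀ u v : ℤ × ℤ × ℤ, icross u v = 0 → icross v u = 0 := by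
    intro u v h
    unfold icross at h ⊢
    simp only [Prod.ext_iff, Prod.fst_zero, Prod.snd_zero] at h ⊢
    exact ⟨by linarith [h.1], by linarith [h.2.1], by linarith [h.2.2]⟩
  have hex : ∀ a : ℤ × ℤ × ℤ, ∃ y : ℤ × ℤ × ℤ, a ∈ A → (y ≠ 0 ∧ icross y (z a) = 0 ∧
      g3 y = g3 a ∧ om y = om (z a) ∧ ((sup3 y : ℤ) : ℝ) = (g3 a : ℝ) / om (z a)) := by
    intro a
    by_cases ha : a ∈ A
    · obtain ⟨y, hy⟩ := exists_normalised (z a) (hz0 a ha) (g3 a) (hg3 a (hA0 a ha))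
      exact ⟨y, fun _ => hy⟩
    · exact ⟨0, fun h => absurd h ha⟩
  choose y hy using hex
  have hsum := om_sum s hs
  rw [← Finset.sum_filter_add_sum_filter_not A (fun a => om (z a) ≤ om a)]
  have h1 : ∑ a ∈ A.filter (fun a => om (z a) ≤ om a), om (z a) ≤ 75 * (s : ℝ) ^ 2 := by
    calc ∑ a ∈ A.filter (fun a => om (z a) ≤ om a), om (z a)
        ≤ ∑ a ∈ A.filter (fun a => om (z a) ≤ om a), om a :=
          Finset.sum_le_sum (fun a ha => (Finset.mem_filter.1 ha).2)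
      _ ≤ ∑ a ∈ (box3 s).filter (fun a => a ≠ 0), om a :=
          Finset.sum_le_sum_of_subset_of_nonneg ((Finset.filter_subset _ _).trans hA)
            (fun a _ _ => om_nonneg a)
      _ ≤ 75 * (s : ℝ) ^ 2 := hsum
  have h2 : ∑ a ∈ A.filter (fun a => ¬ om (z a) ≤ om a), om (z a) ≤ 2 * (75 * (s : ℝ) ^ 2) := by
    have e1 : ∑ a ∈ A.filter (fun a => ¬ om (z a) ≤ om a), om (z a)
        = ∑ a ∈ A.filter (fun a => ¬ om (z a) ≤ om a), om (y a) :=
      Finset.sum_congr rfl (fun a ha => ((hy a (Finset.mem_filter.1 ha).1).2.2.2.1).symm)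
    have e2 : ∑ a ∈ A.filter (fun a => ¬ om (z a) ≤ om a), om (y a)
        ≤ 2 * ∑ b ∈ (box3 s).filter (fun a => a ≠ 0), om b := by
      refine two_to_one _ _ y om om_nonneg ?_ ?_
      · intro a ha
        obtain ⟨haA, hlt⟩ := Finset.mem_filter.1 ha
        rw [not_le] at hlt
        obtain ⟨hy0, hyc, hyg, hyo, hys⟩ := hy a haA
        refine Finset.mem_filter.2 ⟨?_, hy0⟩
        have hpos : 0 < om a := om_pos a (hA0 a haA)
        have hgpos : (0 : ℝ) < (g3 a : ℝ) := by exact_mod_cast hg3 a (hA0 a haA)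
        have hS : ((sup3 a : ℤ) : ℝ) ≠ 0 := by
          intro h0
          unfold om at hpos
          rw [h0, div_zero] at hpos
          exact lt_irrefl _ hpos
        have hsupa : ((sup3 a : ℤ) : ℝ) = (g3 a : ℝ) / om a := by
          unfold om
          field_simp
        have hlt2 : ((sup3 (y a) : ℤ) : ℝ) < ((sup3 a : ℤ) : ℝ) := by
          rw [hys, hsupa]
          exact div_lt_div_of_pos_left hgpos hpos hlt
        have hlt3 : sup3 (y a) < sup3 a := by exact_mod_cast hlt2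
        rw [hbox]
        have := (hbox a).1 (hAb a haA)
        omega
      · intro a ha a' ha' hyy
        obtain ⟨haA, -⟩ := Finset.mem_filter.1 ha
        obtain ⟨haA', -⟩ := Finset.mem_filter.1 ha'
        obtain ⟨hy0, hyc, hyg, -, -⟩ := hy a haA
        obtain ⟨-, hyc', hyg', -, -⟩ := hy a' haA'
        rw [← hyy] at hyc' hyg'
        have hzz : icross (z a) (z a') = 0 :=
          icross_trans (z a) (z a') (y a) hy0 (hswap _ _ hyc) (hswap _ _ hyc')
        exact eq_or_neg_of_par a a' (hA0 a haA) (hinj a haA a' haA' hzz) (hyg.symm.trans hyg')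
    rw [e1]
    linarith
  linarith

end Vale.Agent.Lib.P054
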