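import Vale.Agent.Lib.P054.Lat.Collinear

/-! L2. ROUTE. Let `S` be the filter set. If all pairs in `S` have `icross = 0`: left alternative by `card_collinear`. Else take `b1, b2 ∈ S` with `z = icross b1 b2 ≠ 0`.
`rpar c z`: `c × (b1 × b2) = b1 (c.b2) - b2 (c.b1) = 0`, coordinatewise by `linear_combination` from `rz c b1 = 0`, `rz c b2 = 0` (after `push_cast`).
Inclusion: `rpar c z` says `c_i z_j = c_j z_i`, hence `c_i * (z.b) = z_i * (c.b) = 0` for each `i`; some `c_i ≠ 0`, so `((dot z b : ℤ) : ℝ) = 0`, `Int.cast_eq_zero`. -/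

namespace Vale.Agent.Lib.P054

open Finset

theorem plane_or_line (s : ℕ) (c : ℝ × ℝ × ℝ) (hc : c ≠ 0) :
    ((box3 s).filter (fun b => rz c b = 0)).card ≤ 2 * s + 1 ∨
    ∃ z : ℤ × ℤ × ℤ, z ≠ 0 ∧ rpar c z ∧
      (box3 s).filter (fun b => rz c b = 0) ⊆ (box3 s).filter (fun b => dot z b = 0) := by
  by_cases h : ∀ b ∈ (box3 s).filter (fun b => rz c b = 0),
      ∀ b' ∈ (box3 s).filter (fun b => rz c b = 0), icross b b' = 0
  · left
    exact card_collinear s _ (Finset.filter_subset _ _) h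
  · right
    push Not at h
    obtain ⟨b1, hb1, b2, hb2, hz⟩ := h
    have h1 : rz c b1 = 0 := (Finset.mem_filter.mp hb1).2
    have h2 : rz c b2 = 0 := (Finset.mem_filter.mp hb2).2
    obtain ⟨c1, c2, c3⟩ := c
    obtain ⟨x1, x2, x3⟩ := b1
    obtain ⟨y1, y2, y3⟩ := b2
    simp only [rz] at h1 h2
    have P1 : c2 * ((x1 * y2 - x2 * y1 : ℤ) : ℝ) - c3 * ((x3 * y1 - x1 * y3 : ℤ) : ℝ) = 0 := by
      push_cast
      linear_combination (x1 : ℝ) * h2 - (y1 : ℝ) * h1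
    have P2 : c3 * ((x2 * y3 - x3 * y2 : ℤ) : ℝ) - c1 * ((x1 * y2 - x2 * y1 : ℤ) : ℝ) = 0 := by
      push_cast
      linear_combination (x2 : ℝ) * h2 - (y2 : ℝ) * h1
    have P3 : c1 * ((x3 * y1 - x1 * y3 : ℤ) : ℝ) - c2 * ((x2 * y3 - x3 * y2 : ℤ) : ℝ) = 0 := by
      push_cast
      linear_combination (x3 : ℝ) * h2 - (y3 : ℝ) * h1
    refine ⟨icross (x1, x2, x3) (y1, y2, y3), hz, ⟨P1, P2, P3⟩, ?_⟩
    intro b hb
    have hb' := Finset.mem_filter.mp hb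
    refine Finset.mem_filter.mpr ⟨hb'.1, ?_⟩
    have hb0 : rz (c1, c2, c3) b = 0 := hb'.2
    obtain ⟨w1, w2, w3⟩ := b
    simp only [rz] at hb0
    simp only [dot, icross]
    set z1 : ℤ := x2 * y3 - x3 * y2 with hz1
    set z2 : ℤ := x3 * y1 - x1 * y3 with hz2
    set z3 : ℤ := x1 * y2 - x2 * y1 with hz3
    have e1 : c1 * ((z1 * w1 + z2 * w2 + z3 * w3 : ℤ) : ℝ) = 0 := by
      push_cast
      linear_combination (z1 : ℝ) * hb0 + (w2 : ℝ) * P3 - (w3 : ℝ) * P2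
    have e2 : c2 * ((z1 * w1 + z2 * w2 + z3 * w3 : ℤ) : ℝ) = 0 := by
      push_cast
      linear_combination (z2 : ℝ) * hb0 - (w1 : ℝ) * P3 + (w3 : ℝ) * P1
    have e3 : c3 * ((z1 * w1 + z2 * w2 + z3 * w3 : ℤ) : ℝ) = 0 := by
      push_cast
      linear_combination (z3 : ℝ) * hb0 + (w1 : ℝ) * P2 - (w2 : ℝ) * P1
    by_contra hD
    have hD' : ((z1 * w1 + z2 * w2 + z3 * w3 : ℤ) : ℝ) ≠ 0 := by
      exact_mod_cast hD
    have g1 : c1 = 0 := (mul_eq_zero.mp e1).resolve_right hD'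
    have g2 : c2 = 0 := (mul_eq_zero.mp e2).resolve_right hD'
    have g3' : c3 = 0 := (mul_eq_zero.mp e3).resolve_right hD'
    apply hc
    rw [g1, g2, g3']
    rfl

end Vale.Agent.Lib.P054
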