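import Vale.Agent.Lib.P054.Lat.Defs

/-! L4. ROUTE.
`icross_trans`: `y ≠ 0`, say `y_k ≠ 0`; from `u_i y_j = u_j y_i`, `v_i y_j = v_j y_i`: `y_k^2 (u_i v_j - u_j v_i) = 0` (or `y_k * (..) = 0` by `linear_combination`); three cases for `k`.
`eq_or_neg_of_par`: `icross a a' = 0` says `a_i a'_j = a_j a'_i`. Hence for each `j`: `a'_j • a = a_j • a'` (as vectors); taking `g3` (`Int.gcd_mul_left`):
`|a'_j| * g3 a = |a_j| * g3 a'`, so `|a'_j| = |a_j|` (`g3 a = g3 a' ≠ 0` since `a ≠ 0`, `Int.gcd_eq_zero_iff`). Pick `j` with `a_j ≠ 0`: `a'_j = a_j` or `a'_j = - a_j`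
(`Int.natAbs_eq_natAbs_iff` / `abs_eq_abs`), and then `a_j * a'_i = a'_j * a_i` gives `a'_i = ± a_i` for all `i` with the same sign.
`rpar_trans`: `z ≠ 0` gives `c = l • z` (`l = c_k / z_k`), likewise `c' = l' • z'`; then every coordinate of `c × c'` is `l l'` times one of `icross z z' = 0`. -/

namespace Vale.Agent.Lib.P054

private lemma cross_trans_aux {R : Type*} [CommRing R] [IsDomain R]
    (u1 u2 u3 v1 v2 v3 y1 y2 y3 : R) (hy' : y1 ≠ 0 ∨ y2 ≠ 0 ∨ y3 ≠ 0)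
    (a1 : u2 * y3 - u3 * y2 = 0) (a2 : u3 * y1 - u1 * y3 = 0) (a3 : u1 * y2 - u2 * y1 = 0)
    (b1 : v2 * y3 - v3 * y2 = 0) (b2 : v3 * y1 - v1 * y3 = 0) (b3 : v1 * y2 - v2 * y1 = 0) :
    u2 * v3 - u3 * v2 = 0 ∧ u3 * v1 - u1 * v3 = 0 ∧ u1 * v2 - u2 * v1 = 0 := by
  rcases hy' with h | h | h
  · refine ⟨?_, ?_, ?_⟩ <;> apply mul_left_cancel₀ h <;> rw [mul_zero]
    · linear_combination (-u1) * b1 - v3 * a3 - v2 * a2
    · linear_combination (v1) * a2 - u1 * b2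
    · linear_combination (v1) * a3 - u1 * b3
  · refine ⟨?_, ?_, ?_⟩ <;> apply mul_left_cancel₀ h <;> rw [mul_zero]
    · linear_combination (v2) * a1 - u2 * b1
    · linear_combination (-u2) * b2 - v1 * a1 - v3 * a3
    · linear_combination (v2) * a3 - u2 * b3
  · refine ⟨?_, ?_, ?_⟩ <;> apply mul_left_cancel₀ h <;> rw [mul_zero]
    · linear_combination (v3) * a1 - u3 * b1
    · linear_combination (v3) * a2 - u3 * b2
    · linear_combination (-u3) * b3 - v2 * a2 - v1 * a1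

private lemma ne_zero_aux (y1 y2 y3 : ℤ) (hy : ((y1, y2, y3) : ℤ × ℤ × ℤ) ≠ 0) :
    y1 ≠ 0 ∨ y2 ≠ 0 ∨ y3 ≠ 0 := by
  by_contra hcon
  push Not at hcon
  exact hy (by simp [hcon.1, hcon.2.1, hcon.2.2])

theorem icross_trans (u v y : ℤ × ℤ × ℤ) (hy : y ≠ 0) (hu : icross u y = 0) (hv : icross v y = 0) :
    icross u v = 0 := by
  obtain ⟨u1, u2, u3⟩ := u
  obtain ⟨v1, v2, v3⟩ := v
  obtain ⟨y1, y2, y3⟩ := y
  unfold icross at hu hv ⊢
  simp only [Prod.ext_iff, Prod.fst_zero, Prod.snd_zero] at hu hv ⊢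
  obtain ⟨a1, a2, a3⟩ := hu
  obtain ⟨b1, b2, b3⟩ := hv
  exact cross_trans_aux u1 u2 u3 v1 v2 v3 y1 y2 y3 (ne_zero_aux _ _ _ hy) a1 a2 a3 b1 b2 b3

private lemma natAbs_aux (a1 a2 a3 b1 b2 b3 c c' : ℤ)
    (hg : Nat.gcd a1.natAbs (Nat.gcd a2.natAbs a3.natAbs)
      = Nat.gcd b1.natAbs (Nat.gcd b2.natAbs b3.natAbs))
    (hpos : 0 < Nat.gcd a1.natAbs (Nat.gcd a2.natAbs a3.natAbs))
    (h1 : c' * a1 = c * b1) (h2 : c' * a2 = c * b2) (h3 : c' * a3 = c * b3) :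
    c' = c ∨ c' = -c := by
  have e1 : c'.natAbs * a1.natAbs = c.natAbs * b1.natAbs := by
    rw [← Int.natAbs_mul, ← Int.natAbs_mul, h1]
  have e2 : c'.natAbs * a2.natAbs = c.natAbs * b2.natAbs := by
    rw [← Int.natAbs_mul, ← Int.natAbs_mul, h2]
  have e3 : c'.natAbs * a3.natAbs = c.natAbs * b3.natAbs := by
    rw [← Int.natAbs_mul, ← Int.natAbs_mul, h3]
  have e4 : c'.natAbs * Nat.gcd a1.natAbs (Nat.gcd a2.natAbs a3.natAbs)
      = c.natAbs * Nat.gcd a1.natAbs (Nat.gcd a2.natAbs a3.natAbs) := by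
    conv_rhs => rw [hg]
    rw [← Nat.gcd_mul_left, ← Nat.gcd_mul_left, ← Nat.gcd_mul_left, ← Nat.gcd_mul_left, e1, e2, e3]
  exact Int.natAbs_eq_natAbs_iff.1 (Nat.eq_of_mul_eq_mul_right hpos e4)

theorem eq_or_neg_of_par (a a' : ℤ × ℤ × ℤ) (ha : a ≠ 0) (h : icross a a' = 0) (hg : g3 a = g3 a') :
    a' = a ∨ a' = -a := by
  obtain ⟨a1, a2, a3⟩ := a
  obtain ⟨b1, b2, b3⟩ := a'
  unfold icross at h
  simp only [Prod.ext_iff, Prod.fst_zero, Prod.snd_zero] at h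
  obtain ⟨c1, c2, c3⟩ := h
  have hg' : Nat.gcd a1.natAbs (Nat.gcd a2.natAbs a3.natAbs)
      = Nat.gcd b1.natAbs (Nat.gcd b2.natAbs b3.natAbs) := by
    simpa [g3, Int.gcd] using hg
  have hne := ne_zero_aux _ _ _ ha
  have hpos : 0 < Nat.gcd a1.natAbs (Nat.gcd a2.natAbs a3.natAbs) := by
    rw [Nat.pos_iff_ne_zero]
    intro h0
    rw [Nat.gcd_eq_zero_iff, Nat.gcd_eq_zero_iff] at h0
    simp only [Int.natAbs_eq_zero] at h0
    rcases hne with h | h | h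
    · exact h h0.1
    · exact h h0.2.1
    · exact h h0.2.2
  simp only [Prod.ext_iff, Prod.fst_neg, Prod.snd_neg]
  rcases hne with h | h | h
  · rcases natAbs_aux a1 a2 a3 b1 b2 b3 a1 b1 hg' hpos (by ring) (by linear_combination (-1) * c3)
      (by linear_combination c2) with e | e
    · left
      refine ⟨e, mul_left_cancel₀ h ?_, mul_left_cancel₀ h ?_⟩
      · rw [e] at c3; linear_combination c3
      · rw [e] at c2; linear_combination (-1) * c2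
    · right
      refine ⟨e, mul_left_cancel₀ h ?_, mul_left_cancel₀ h ?_⟩
      · rw [e] at c3; linear_combination c3
      · rw [e] at c2; linear_combination (-1) * c2
  · rcases natAbs_aux a1 a2 a3 b1 b2 b3 a2 b2 hg' hpos (by linear_combination c3) (by ring)
      (by linear_combination (-1) * c1) with e | e
    · left
      refine ⟨mul_left_cancel₀ h ?_, e, mul_left_cancel₀ h ?_⟩
      · rw [e] at c3; linear_combination (-1) * c3
      · rw [e] at c1; linear_combination c1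
    · right
      refine ⟨mul_left_cancel₀ h ?_, e, mul_left_cancel₀ h ?_⟩
      · rw [e] at c3; linear_combination (-1) * c3
      · rw [e] at c1; linear_combination c1
  · rcases natAbs_aux a1 a2 a3 b1 b2 b3 a3 b3 hg' hpos (by linear_combination (-1) * c2)
      (by linear_combination c1) (by ring) with e | e
    · left
      refine ⟨mul_left_cancel₀ h ?_, mul_left_cancel₀ h ?_, e⟩
      · rw [e] at c2; linear_combination c2
      · rw [e] at c1; linear_combination (-1) * c1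
    · right
      refine ⟨mul_left_cancel₀ h ?_, mul_left_cancel₀ h ?_, e⟩
      · rw [e] at c2; linear_combination c2
      · rw [e] at c1; linear_combination (-1) * c1

theorem rpar_trans (c c' : ℝ × ℝ × ℝ) (z z' : ℤ × ℤ × ℤ) (hz : z ≠ 0) (hz' : z' ≠ 0)
    (h : rpar c z) (h' : rpar c' z') (hzz : icross z z' = 0) : rrpar c c' := by
  obtain ⟨c1, c2, c3⟩ := c
  obtain ⟨d1, d2, d3⟩ := c'
  obtain ⟨z1, z2, z3⟩ := z
  obtain ⟨w1, w2, w3⟩ := z'
  unfold icross at hzz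
  simp only [Prod.ext_iff, Prod.fst_zero, Prod.snd_zero] at hzz
  obtain ⟨e1, e2, e3⟩ := hzz
  unfold rpar at h h'
  unfold rrpar
  simp only at h h' ⊢
  obtain ⟨a1, a2, a3⟩ := h
  obtain ⟨b1, b2, b3⟩ := h'
  have hzr : (z1 : ℝ) ≠ 0 ∨ (z2 : ℝ) ≠ 0 ∨ (z3 : ℝ) ≠ 0 := by
    simpa using ne_zero_aux _ _ _ hz
  have hwr : (w1 : ℝ) ≠ 0 ∨ (w2 : ℝ) ≠ 0 ∨ (w3 : ℝ) ≠ 0 := by
    simpa using ne_zero_aux _ _ _ hz'
  have f1 : (w2 : ℝ) * z3 - w3 * z2 = 0 := by
    have : ((z2 * w3 - z3 * w2 : ℤ) : ℝ) = 0 := by rw [e1]; simp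
    push_cast at this
    linear_combination (-1) * this
  have f2 : (w3 : ℝ) * z1 - w1 * z3 = 0 := by
    have : ((z3 * w1 - z1 * w3 : ℤ) : ℝ) = 0 := by rw [e2]; simp
    push_cast at this
    linear_combination (-1) * this
  have f3 : (w1 : ℝ) * z2 - w2 * z1 = 0 := by
    have : ((z1 * w2 - z2 * w1 : ℤ) : ℝ) = 0 := by rw [e3]; simp
    push_cast at this
    linear_combination (-1) * this
  obtain ⟨g1, g2, g3'⟩ := cross_trans_aux c1 c2 c3 (w1 : ℝ) w2 w3 z1 z2 z3 hzr a1 a2 a3 f1 f2 f3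
  exact cross_trans_aux c1 c2 c3 d1 d2 d3 (w1 : ℝ) w2 w3 hwr g1 g2 g3' b1 b2 b3

end Vale.Agent.Lib.P054
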