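import Vale.Agent.Lib.P054.Lat.EnergyG

/-! L11. ROUTE: copy of `pinned` in `Pinned.lean`. Choose `Z : E → ℤ × ℤ × ℤ` with `lat (Z q) = q` and coordinates of `Z q` in `[1, t]` for `q ∈ P` (from `hP`, `Classical.choose`/`choose`).
`A = P.erase p`, `card_sq_le A (dist p)`; the set `{(q, q') ∈ A × A : dist p q = dist p q'}` injects by `(q, q') ↦ (Z q - Z p, Z q' - Z p)` into the set of `card_energy_G .. t`:
`dist p q = ‖p - q‖ = ‖lat (Z q - Z p)‖` (`dist_eq_norm`, `norm_sub_rev`, additivity of `lat`). `Z` is injective on `P` since `lat (Z q) = q`. -/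

namespace Vale.Agent.Lib.P054

open Finset

variable {E : Type*} [NormedAddCommGroup E] [InnerProductSpace ℝ E]

private theorem lat_sub (u1 u2 u3 : E) (a b : ℤ × ℤ × ℤ) :
    lat u1 u2 u3 (a - b) = lat u1 u2 u3 a - lat u1 u2 u3 b := by
  unfold lat
  simp only [Prod.fst_sub, Prod.snd_sub]
  push_cast
  module

open Classical in
theorem pinned_G (u1 u2 u3 : E) (hu : LinearIndependent ℝ ![u1, u2, u3]) (t : ℕ) (ht : 1 ≤ t) (P : Finset E)
    (hP : ∀ q ∈ P, ∃ x y w : ℕ, (1 ≤ x ∧ x ≤ t) ∧ (1 ≤ y ∧ y ≤ t) ∧ (1 ≤ w ∧ w ≤ t) ∧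
      q = (x : ℝ) • u1 + (y : ℝ) • u2 + (w : ℝ) • u3)
    (p : E) (hp : p ∈ P) :
    ((P.card : ℝ) - 1) ^ 2
      ≤ 1100 * ((2 * t : ℕ) : ℝ) ^ 4 * (((P.erase p).image (fun q => dist p q)).card : ℝ) := by
  have hex : ∀ q : E, ∃ a : ℤ × ℤ × ℤ, q ∈ P →
      (lat u1 u2 u3 a = q ∧ (1 ≤ a.1 ∧ a.1 ≤ t) ∧ (1 ≤ a.2.1 ∧ a.2.1 ≤ t) ∧ (1 ≤ a.2.2 ∧ a.2.2 ≤ t)) := by
    intro q
    by_cases hq : q ∈ P
    · obtain ⟨x, y, w, hx, hy, hw, rfl⟩ := hP q hq
      refine ⟨((x : ℤ), (y : ℤ), (w : ℤ)), fun _ => ⟨?_, ?_, ?_, ?_⟩⟩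
      · unfold lat
        push_cast
        rfl
      · show (1 : ℤ) ≤ (x : ℤ) ∧ (x : ℤ) ≤ t
        exact ⟨by exact_mod_cast hx.1, by exact_mod_cast hx.2⟩
      · show (1 : ℤ) ≤ (y : ℤ) ∧ (y : ℤ) ≤ t
        exact ⟨by exact_mod_cast hy.1, by exact_mod_cast hy.2⟩
      · show (1 : ℤ) ≤ (w : ℤ) ∧ (w : ℤ) ≤ t
        exact ⟨by exact_mod_cast hw.1, by exact_mod_cast hw.2⟩
    · exact ⟨0, fun h => absurd h hq⟩
  choose Z hZ using hex
  have hdist : ∀ q ∈ P, dist p q = ‖lat u1 u2 u3 (Z q - Z p)‖ := by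
    intro q hq
    rw [lat_sub, (hZ q hq).1, (hZ p hp).1, dist_eq_norm, norm_sub_rev]
  have hcs := card_sq_le (P.erase p) (fun q => dist p q)
  have hcard : ((P.erase p).card : ℝ) = (P.card : ℝ) - 1 := by
    rw [Finset.card_erase_of_mem hp, Nat.cast_sub (Finset.card_pos.mpr ⟨p, hp⟩)]
    simp
  have hbox : ∀ q ∈ P, Z q - Z p ∈ box3 t := by
    intro q hq
    obtain ⟨-, a1, a2, a3⟩ := hZ q hq
    obtain ⟨-, b1, b2, b3⟩ := hZ p hp
    unfold box3 box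
    simp only [Finset.mem_product, Finset.mem_Icc, Prod.fst_sub, Prod.snd_sub]
    refine ⟨⟨?_, ?_⟩, ⟨?_, ?_⟩, ⟨?_, ?_⟩⟩ <;> omega
  have hinj : (((P.erase p) ×ˢ (P.erase p)).filter (fun x => dist p x.1 = dist p x.2)).card
      ≤ ((box3 t ×ˢ box3 t).filter (fun x => ‖lat u1 u2 u3 x.1‖ = ‖lat u1 u2 u3 x.2‖)).card := by
    refine Finset.card_le_card_of_injOn (fun x => (Z x.1 - Z p, Z x.2 - Z p)) ?_ ?_
    · intro x hx
      have hx' := Finset.mem_filter.mp (Finset.mem_coe.mp hx)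
      obtain ⟨hx1, hx2⟩ := Finset.mem_product.mp hx'.1
      have h1 := Finset.mem_of_mem_erase hx1
      have h2 := Finset.mem_of_mem_erase hx2
      refine Finset.mem_coe.mpr (Finset.mem_filter.mpr ⟨Finset.mem_product.mpr ⟨hbox _ h1, hbox _ h2⟩, ?_⟩)
      show ‖lat u1 u2 u3 (Z x.1 - Z p)‖ = ‖lat u1 u2 u3 (Z x.2 - Z p)‖
      rw [← hdist _ h1, ← hdist _ h2]
      exact hx'.2
    · intro x hx y hy hxy
      have hx' := Finset.mem_filter.mp (Finset.mem_coe.mp hx)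
      have hy' := Finset.mem_filter.mp (Finset.mem_coe.mp hy)
      obtain ⟨hx1, hx2⟩ := Finset.mem_product.mp hx'.1
      obtain ⟨hy1, hy2⟩ := Finset.mem_product.mp hy'.1
      have key : ∀ a ∈ P, ∀ b ∈ P, Z a - Z p = Z b - Z p → a = b := by
        intro a ha b hb hab
        have : Z a = Z b := sub_left_injective hab
        rw [← (hZ a ha).1, ← (hZ b hb).1, this]
      have e := Prod.mk.inj hxy
      exact Prod.ext (key _ (Finset.mem_of_mem_erase hx1) _ (Finset.mem_of_mem_erase hy1) e.1)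
        (key _ (Finset.mem_of_mem_erase hx2) _ (Finset.mem_of_mem_erase hy2) e.2)
  have hE := card_energy_G u1 u2 u3 hu t ht
  have h1 : (((P.erase p).card : ℝ)) ^ 2 ≤ (((P.erase p).image (fun q => dist p q)).card : ℝ)
      * ((((P.erase p) ×ˢ (P.erase p)).filter (fun x => dist p x.1 = dist p x.2)).card : ℝ) := by
    exact_mod_cast hcs
  rw [← hcard]
  calc (((P.erase p).card : ℝ)) ^ 2 ≤ (((P.erase p).image (fun q => dist p q)).card : ℝ)
      * ((((P.erase p) ×ˢ (P.erase p)).filter (fun x => dist p x.1 = dist p x.2)).card : ℝ) := h1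
    _ ≤ (((P.erase p).image (fun q => dist p q)).card : ℝ)
      * (1100 * ((2 * t : ℕ) : ℝ) ^ 4) := by
        refine mul_le_mul_of_nonneg_left (le_trans ?_ hE) (by positivity)
        exact_mod_cast hinj
    _ = _ := by ring

end Vale.Agent.Lib.P054
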